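import Vale.Agent.P063.H291.Width

/-!
# The total influence of sparse hypergraph properties, and the relative threshold width
-/

set_option autoImplicit false

namespace Vale.Agent.P063.H107

open Finset Vale.Agent.P063 Vale.Agent.P063.H291

variable {n r : ℕ}

/-- choice of parameters, keeping the dependence on `p` -/
lemma params_sparse (hr : 2 ≤ r) (hΛ1 : 1 ≤ Real.log n)
    (hbig : 4 * Real.log n ^ 6 * Real.exp (Real.log n / 4) ≤ Nat.sqrt n)
    {p : ℝ} (h0 : 0 < p) (h1 : p < 1) :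
    ∃ d : ℕ,
      4 * (4 / (p * (1 - p))) ^ d ≤ (1 / Real.log n ^ 2) ^ 3 * (Nat.sqrt n : ℝ) ∧
      (2 * r * (1 / Real.log n ^ 2) + 2 * r / (Nat.sqrt n : ℝ)
        + 1 / (((d : ℝ) + 1) ^ ((r : ℝ) / ((r : ℝ) - 1)) / r))
        ≤ 20 * r * Real.log (4 / (p * (1 - p))) ^ ((r : ℝ) / ((r : ℝ) - 1))
          / Real.log n ^ ((r : ℝ) / ((r : ℝ) - 1)) := by
  set Λ := Real.log n with hΛ
  set L : ℝ := (Nat.sqrt n : ℝ) with hL
  set α : ℝ := (r : ℝ) / ((r : ℝ) - 1) with hα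
  have hr2 : (2 : ℝ) ≤ r := by exact_mod_cast hr
  have hr1 : (0 : ℝ) < (r : ℝ) - 1 := by linarith only [hr2]
  have hα1 : 1 ≤ α := by rw [hα, le_div_iff₀ hr1]; linarith only []
  have hα2 : α ≤ 2 := by rw [hα, div_le_iff₀ hr1]; linarith only [hr2]
  have hs : 0 < p * (1 - p) := mul_pos h0 (by linarith only [h1])
  have hs4 : p * (1 - p) ≤ 1 / 4 := by nlinarith only [sq_nonneg (p - 1 / 2)]
  have hΛ0 : 0 < Λ := by linarith only [hΛ1]
  set K := 4 / (p * (1 - p)) with hK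
  have hKpos : 0 < K := by positivity
  have hK16 : 16 ≤ K := by
    rw [hK, le_div_iff₀ hs]; linarith only [hs4]
  have hlogK : 1 ≤ Real.log K := by
    rw [Real.le_log_iff_exp_le hKpos]
    have := Real.exp_one_lt_d9
    linarith only [hK16, this]
  have hLpos : 0 < L := lt_of_lt_of_le (by positivity) hbig
  have hM : Real.exp (Λ / 4) ≤ L / (4 * Λ ^ 6) := by
    rw [le_div_iff₀ (by positivity)]
    linarith only [hbig]
  have hMpos : 0 < L / (4 * Λ ^ 6) := by (clear * - hLpos hΛ1; positivity)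
  have hlogM : Λ / 4 ≤ Real.log (L / (4 * Λ ^ 6)) := by
    rw [Real.le_log_iff_exp_le hMpos]; exact hM
  have hLΛ : Λ ^ 2 ≤ L := by
    have e1 : (1 : ℝ) ≤ Real.exp (Λ / 4) := Real.one_le_exp (by positivity)
    have e2 : Λ ^ 2 ≤ Λ ^ 6 := pow_le_pow_right₀ hΛ1 (by norm_num)
    have e3 : Λ ^ 6 ≤ Λ ^ 6 * Real.exp (Λ / 4) := le_mul_of_one_le_right (by positivity) e1
    nlinarith only [hbig, e2, e3]
  refine ⟨⌊Real.log (L / (4 * Λ ^ 6)) / Real.log K⌋₊, ?_, ?_⟩
  · have hd : ((⌊Real.log (L / (4 * Λ ^ 6)) / Real.log K⌋₊ : ℕ) : ℝ)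
        ≤ Real.log (L / (4 * Λ ^ 6)) / Real.log K :=
      Nat.floor_le (div_nonneg (by linarith only [hΛ1, hlogM]) (by linarith only [hlogK]))
    set d := ⌊Real.log (L / (4 * Λ ^ 6)) / Real.log K⌋₊ with hd0
    rw [le_div_iff₀ (by linarith only [hlogK])] at hd
    have hpow : K ^ d ≤ L / (4 * Λ ^ 6) := by
      rw [← Real.exp_log hKpos, ← Real.exp_nat_mul]
      calc _ ≤ Real.exp (Real.log (L / (4 * Λ ^ 6))) := Real.exp_le_exp.2 hd
        _ = _ := Real.exp_log hMpos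
    calc 4 * K ^ d ≤ 4 * (L / (4 * Λ ^ 6)) := by linarith only [hpow]
      _ = (1 / Λ ^ 2) ^ 3 * L := by (clear * - hΛ1 hLpos; field_simp)
  · have hd : Real.log (L / (4 * Λ ^ 6)) / Real.log K
        < ((⌊Real.log (L / (4 * Λ ^ 6)) / Real.log K⌋₊ : ℕ) : ℝ) + 1 := Nat.lt_floor_add_one _
    set d := ⌊Real.log (L / (4 * Λ ^ 6)) / Real.log K⌋₊ with hd0
    have hd1 : Λ / (4 * Real.log K) ≤ (d : ℝ) + 1 := by
      refine le_trans ?_ hd.le
      rw [← div_div]
      exact div_le_div_of_nonneg_right hlogM (by linarith only [hlogK])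
    have hΛα : 0 < Λ ^ α := Real.rpow_pos_of_pos hΛ0 _
    have hΛα2 : Λ ^ α ≤ Λ ^ 2 := by
      have := Real.rpow_le_rpow_of_exponent_le hΛ1 hα2
      rwa [Real.rpow_two] at this
    have hinv2 : 1 / Λ ^ 2 ≤ 1 / Λ ^ α := one_div_le_one_div_of_le hΛα hΛα2
    have hLinv : 1 / L ≤ 1 / Λ ^ α := one_div_le_one_div_of_le hΛα (hΛα2.trans hLΛ)
    have hinv0 : 0 ≤ 1 / Λ ^ α := by positivity
    have hKα1 : 1 ≤ Real.log K ^ α := Real.one_le_rpow hlogK (by linarith only [hα1])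
    have t1 : 2 * r * (1 / Λ ^ 2) ≤ 2 * r * (Real.log K ^ α * (1 / Λ ^ α)) := by
      refine mul_le_mul_of_nonneg_left ?_ (by linarith only [hr2])
      exact hinv2.trans (le_mul_of_one_le_left hinv0 hKα1)
    have t2 : 2 * r / L ≤ 2 * r * (Real.log K ^ α * (1 / Λ ^ α)) := by
      rw [div_eq_mul_one_div]
      refine mul_le_mul_of_nonneg_left ?_ (by linarith only [hr2])
      exact hLinv.trans (le_mul_of_one_le_left hinv0 hKα1)
    have hdα : Λ ^ α / (4 * Real.log K) ^ α ≤ ((d : ℝ) + 1) ^ α := by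
      rw [← Real.div_rpow hΛ0.le (by (clear * - hlogK; positivity))]
      exact Real.rpow_le_rpow (by (clear * - hΛ1 hlogK; positivity)) hd1 (by linarith only [hα1])
    have h4K : 0 < (4 * Real.log K) ^ α := Real.rpow_pos_of_pos (by (clear * - hlogK; positivity)) _
    have h4K2 : (4 * Real.log K) ^ α ≤ 16 * Real.log K ^ α := by
      rw [Real.mul_rpow (by norm_num) (by linarith only [hlogK])]
      refine mul_le_mul_of_nonneg_right ?_ (by linarith only [hKα1])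
      have := Real.rpow_le_rpow_of_exponent_le (x := 4) (by norm_num) hα2
      rw [Real.rpow_two] at this
      linarith only [this]
    have t3 : 1 / (((d : ℝ) + 1) ^ α / r) ≤ 16 * r * (Real.log K ^ α * (1 / Λ ^ α)) := by
      have hdpos : 0 < ((d : ℝ) + 1) ^ α := Real.rpow_pos_of_pos (by (clear * -; positivity)) _
      have e1 : 1 / (((d : ℝ) + 1) ^ α / r) = r * (1 / ((d : ℝ) + 1) ^ α) := by
        rw [one_div_div]; ring
      have e2 : 1 / ((d : ℝ) + 1) ^ α ≤ (4 * Real.log K) ^ α * (1 / Λ ^ α) := by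
        have e3 : 1 / ((d : ℝ) + 1) ^ α ≤ 1 / (Λ ^ α / (4 * Real.log K) ^ α) :=
          one_div_le_one_div_of_le (by (clear * - hΛ1 hlogK; positivity)) hdα
        rw [one_div_div] at e3
        calc _ ≤ _ := e3
          _ = _ := by ring
      rw [e1]
      calc r * (1 / ((d : ℝ) + 1) ^ α) ≤ r * ((4 * Real.log K) ^ α * (1 / Λ ^ α)) :=
            mul_le_mul_of_nonneg_left e2 (by linarith only [hr2])
        _ ≤ r * ((16 * Real.log K ^ α) * (1 / Λ ^ α)) := by
            refine mul_le_mul_of_nonneg_left ?_ (by linarith only [hr2])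
            exact mul_le_mul_of_nonneg_right h4K2 hinv0
        _ = _ := by ring
    have e9 : 20 * r * Real.log K ^ α / Λ ^ α = 20 * r * (Real.log K ^ α * (1 / Λ ^ α)) := by ring
    rw [e9]
    linarith only [t1, t2, t3]

lemma log_four_div {p : ℝ} (h0 : 0 < p) (h1 : p < 1) : 1 ≤ Real.log (4 / (p * (1 - p))) := by
  have hs : 0 < p * (1 - p) := mul_pos h0 (by linarith only [h1])
  have hs4 : p * (1 - p) ≤ 1 / 4 := by nlinarith only [sq_nonneg (p - 1 / 2)]
  rw [Real.le_log_iff_exp_le (by positivity), le_div_iff₀ hs]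
  have := Real.exp_one_lt_d9
  nlinarith only [this, hs4, hs]

/-- Poincaré, keeping `p (1 - p)` -/
lemma var_le' {p : ℝ} (h0 : 0 < p) (h1 : p < 1) (P : Set (Edge n r → Bool)) :
    mu p P - mu p P ^ 2 ≤ p * (1 - p) * totalInfl p P := by
  rw [mu_eq, var_eq h0 h1 (ind P) (ind_bool P)]
  calc ∑ S ∈ Finset.univ.filter (fun S : Finset (Edge n r) => S.Nonempty), fc p (ind P) S ^ 2
      ≤ ∑ S ∈ Finset.univ.filter (fun S : Finset (Edge n r) => S.Nonempty),
        (S.card : ℝ) * fc p (ind P) S ^ 2 := by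
        refine Finset.sum_le_sum fun S hS => ?_
        rw [Finset.mem_filter] at hS
        have h2 : (1 : ℝ) ≤ S.card := by exact_mod_cast hS.2.card_pos
        exact le_mul_of_one_le_left (sq_nonneg _) h2
    _ ≤ ∑ S : Finset (Edge n r), (S.card : ℝ) * fc p (ind P) S ^ 2 :=
        Finset.sum_le_sum_of_subset_of_nonneg (Finset.subset_univ _) fun S _ _ =>
          mul_nonneg (Nat.cast_nonneg _) (sq_nonneg _)
    _ = p * (1 - p) * totalInfl p P := sum_card_ind h0 h1 P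

theorem infl_sparse_large (hr : 2 ≤ r) : ∃ n0 : ℕ, 2 ≤ n0 ∧ ∀ n : ℕ, n0 ≤ n →
    ∀ P : Set (Edge n r → Bool), IsProperty P → ∀ p : ℝ, 0 < p → p < 1 →
      Real.log n ^ ((r : ℝ) / ((r : ℝ) - 1)) * (mu p P - mu p P ^ 2)
        ≤ 20 * r * (Real.log (4 / (p * (1 - p))) ^ ((r : ℝ) / ((r : ℝ) - 1)) *
          (p * (1 - p) * totalInfl p P)) := by
  obtain ⟨n0, hn02, hn0⟩ := eventually_good
  refine ⟨n0, hn02, fun n hn P hP p h0 h1 => ?_⟩
  obtain ⟨hΛ1, hbig⟩ := hn0 n hn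
  have hs : 0 < p * (1 - p) := mul_pos h0 (by linarith only [h1])
  have hT : 0 ≤ p * (1 - p) * totalInfl p P :=
    mul_nonneg hs.le (totalInfl_nonneg (n := n) (r := r) h0.le h1.le P)
  have hI := sum_card_ind h0 h1 P
  obtain ⟨d, hd1, hd2⟩ := params_sparse hr hΛ1 hbig h0 h1
  have hΛ0 : 0 < Real.log n := by linarith only [hΛ1]
  have hr2 : (2 : ℝ) ≤ r := by exact_mod_cast hr
  have hLpos : (0 : ℝ) < Nat.sqrt n := lt_of_lt_of_le (by positivity) hbig
  have hL1 : 1 ≤ Nat.sqrt n := by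
    have : 0 < Nat.sqrt n := by exact_mod_cast hLpos
    exact this
  have hcore := core (n := n) (r := r) (L := Nat.sqrt n) (d := d) hL1 (Nat.sqrt_le n) h0 h1
    (ind P) (ind_bool P) (ind_inv hP) (1 / Real.log n ^ 2) (by positivity) hd1
    (((d : ℝ) + 1) ^ ((r : ℝ) / ((r : ℝ) - 1)) / r)
    (div_pos (Real.rpow_pos_of_pos (by (clear * -; positivity)) _) (by linarith only [hr2]))
    (fun S hS hdeg => card_ge hr d S hS hdeg)
  rw [hI, ← mu_eq] at hcore
  have hΛα : 0 < Real.log n ^ ((r : ℝ) / ((r : ℝ) - 1)) := Real.rpow_pos_of_pos hΛ0 _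
  have h2 := hcore.trans (mul_le_mul_of_nonneg_right hd2 hT)
  calc Real.log n ^ ((r : ℝ) / ((r : ℝ) - 1)) * (mu p P - mu p P ^ 2)
      ≤ Real.log n ^ ((r : ℝ) / ((r : ℝ) - 1)) *
        (20 * r * Real.log (4 / (p * (1 - p))) ^ ((r : ℝ) / ((r : ℝ) - 1))
          / Real.log n ^ ((r : ℝ) / ((r : ℝ) - 1)) * (p * (1 - p) * totalInfl p P)) :=
        mul_le_mul_of_nonneg_left h2 hΛα.le
    _ = _ := by
        field_simp

/-- **Density-dependent lower bound for the total influence of every property**, all `n ≥ r`,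
all `0 < p < 1`. -/
theorem infl_sparse (hr : 2 ≤ r) : ∃ C : ℝ, 0 < C ∧ ∀ n : ℕ, r ≤ n →
    ∀ P : Set (Edge n r → Bool), IsProperty P → ∀ p : ℝ, 0 < p → p < 1 →
      Real.log n ^ ((r : ℝ) / ((r : ℝ) - 1)) * (mu p P * (1 - mu p P))
        ≤ C * (Real.log (4 / (p * (1 - p))) ^ ((r : ℝ) / ((r : ℝ) - 1)) *
          (p * (1 - p) * totalInfl p P)) := by
  obtain ⟨n0, hn02, hn0⟩ := infl_sparse_large hr
  have hr2 : (2:ℝ) ≤ r := by exact_mod_cast hr
  have hr1 : (0:ℝ) < (r:ℝ) - 1 := by linarith only [hr2]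
  have hα2 : (r : ℝ) / ((r : ℝ) - 1) ≤ 2 := by rw [div_le_iff₀ hr1]; linarith only [hr2]
  have hα0 : 0 < (r : ℝ) / ((r : ℝ) - 1) := by
    have : (0:ℝ) < r := by linarith only [hr2]
    positivity
  refine ⟨20 * r + (1 + Real.log n0) ^ 2, by
    have : (0:ℝ) < r := by linarith only [hr2]
    positivity, ?_⟩
  intro n hrn P hP p h0 h1
  have hs : 0 < p * (1 - p) := mul_pos h0 (by linarith only [h1])
  have hT : 0 ≤ p * (1 - p) * totalInfl p P :=
    mul_nonneg hs.le (totalInfl_nonneg (n := n) (r := r) h0.le h1.le P)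
  have hK := log_four_div h0 h1
  have hKα : 1 ≤ Real.log (4 / (p * (1 - p))) ^ ((r : ℝ) / ((r : ℝ) - 1)) :=
    Real.one_le_rpow hK hα0.le
  set T := p * (1 - p) * totalInfl p P with hTdef
  set Q := Real.log (4 / (p * (1 - p))) ^ ((r : ℝ) / ((r : ℝ) - 1)) with hQ
  have hQT : T ≤ Q * T := le_mul_of_one_le_left hT hKα
  have hQT0 : 0 ≤ Q * T := hT.trans hQT
  have hv : mu p P * (1 - mu p P) = mu p P - mu p P ^ 2 := by ring
  rw [hv]
  have hn2 : (2:ℝ) ≤ n := by exact_mod_cast (le_trans hr hrn)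
  have hl0 : 0 < Real.log n := Real.log_pos (by linarith only [hn2])
  by_cases hn : n0 ≤ n
  · refine (hn0 n hn P hP p h0 h1).trans (mul_le_mul_of_nonneg_right ?_ hQT0)
    have : 0 ≤ (1 + Real.log n0) ^ 2 := sq_nonneg _
    linarith only [this]
  · push Not at hn
    have hlog : Real.log n ≤ Real.log n0 := by
      apply Real.log_le_log (by linarith only [hn2])
      exact_mod_cast hn.le
    have h3 : Real.log n ^ ((r : ℝ) / ((r : ℝ) - 1)) ≤ (1 + Real.log n0) ^ 2 := by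
      calc Real.log n ^ ((r : ℝ) / ((r : ℝ) - 1))
          ≤ (1 + Real.log n0) ^ ((r : ℝ) / ((r : ℝ) - 1)) :=
            Real.rpow_le_rpow hl0.le (by linarith only [hlog]) hα0.le
        _ ≤ (1 + Real.log n0) ^ (2:ℝ) :=
            Real.rpow_le_rpow_of_exponent_le (by linarith only [hl0, hlog]) hα2
        _ = (1 + Real.log n0) ^ 2 := Real.rpow_two _
    have h4 := var_le' (n := n) h0 h1 P
    have h5 : 0 ≤ Real.log n ^ ((r : ℝ) / ((r : ℝ) - 1)) := Real.rpow_nonneg hl0.le _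
    calc Real.log n ^ ((r : ℝ) / ((r : ℝ) - 1)) * (mu p P - mu p P ^ 2)
        ≤ Real.log n ^ ((r : ℝ) / ((r : ℝ) - 1)) * T :=
          mul_le_mul_of_nonneg_left h4 h5
      _ ≤ (1 + Real.log n0) ^ 2 * (Q * T) := mul_le_mul h3 hQT hT (sq_nonneg _)
      _ ≤ _ := by
          refine mul_le_mul_of_nonneg_right ?_ hQT0
          linarith only [hr2]

end Vale.Agent.P063.H107
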